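import Vale.Agent.Lib.P335.BridgeDefs

/-!
Bridge job B2 for P335: if every realization of the degree vector `d` has `U` as a clique and
the complement of `U` as an independent set, then the realizations of `d` correspond
bijectively to the 0/1 matrices with row margins `rowM d U` and column margins `colM d U`,
and every matrix switch is a graph switch.
-/

namespace Vale.Agent.Lib.P335.Bridge

open Finset
open scoped Classical
open Vale.Agent.Lib.P335

variable {n : ℕ}

/-- The vertex of `U` with index `i`. -/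
noncomputable def rowV (U : Finset (Fin n)) (i : Fin U.card) : Fin n :=
  (U.equivFin.symm i : Fin n)

/-- The vertex outside `U` with index `j`. -/
noncomputable def colV (U : Finset (Fin n)) (j : Fin Uᶜ.card) : Fin n :=
  ((Uᶜ).equivFin.symm j : Fin n)

lemma rowV_mem (U : Finset (Fin n)) (i : Fin U.card) : rowV U i ∈ U :=
  (U.equivFin.symm i).2

lemma colV_not_mem (U : Finset (Fin n)) (j : Fin Uᶜ.card) : colV U j ∉ U := by
  have h := ((Uᶜ).equivFin.symm j).2
  rw [Finset.mem_compl] at h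
  exact h

lemma rowV_injective (U : Finset (Fin n)) : Function.Injective (rowV U) := by
  intro i i' h
  exact U.equivFin.symm.injective (Subtype.ext h)

lemma colV_injective (U : Finset (Fin n)) : Function.Injective (colV U) := by
  intro j j' h
  exact (Uᶜ).equivFin.symm.injective (Subtype.ext h)

lemma rowV_ne_colV (U : Finset (Fin n)) (i : Fin U.card) (j : Fin Uᶜ.card) :
    rowV U i ≠ colV U j := fun h => colV_not_mem U j (h ▸ rowV_mem U i)

lemma rowV_eq_rowV_iff (U : Finset (Fin n)) (i i' : Fin U.card) :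
    rowV U i = rowV U i' ↔ i = i' := (rowV_injective U).eq_iff

lemma colV_eq_colV_iff (U : Finset (Fin n)) (j j' : Fin Uᶜ.card) :
    colV U j = colV U j' ↔ j = j' := (colV_injective U).eq_iff

lemma rowV_eq_colV_iff (U : Finset (Fin n)) (i : Fin U.card) (j : Fin Uᶜ.card) :
    rowV U i = colV U j ↔ False := iff_false_intro (rowV_ne_colV U i j)

lemma colV_eq_rowV_iff (U : Finset (Fin n)) (i : Fin U.card) (j : Fin Uᶜ.card) :
    colV U j = rowV U i ↔ False := iff_false_intro (rowV_ne_colV U i j).symm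

lemma exists_rowV {U : Finset (Fin n)} {v : Fin n} (hv : v ∈ U) : ∃ i, v = rowV U i :=
  ⟨U.equivFin ⟨v, hv⟩, by simp [rowV]⟩

lemma exists_colV {U : Finset (Fin n)} {v : Fin n} (hv : v ∉ U) : ∃ j, v = colV U j :=
  ⟨(Uᶜ).equivFin ⟨v, Finset.mem_compl.2 hv⟩, by simp [colV]⟩

lemma vertex_cases (U : Finset (Fin n)) (v : Fin n) :
    (∃ i, v = rowV U i) ∨ (∃ j, v = colV U j) := by
  by_cases hv : v ∈ U
  · exact Or.inl (exists_rowV hv)
  · exact Or.inr (exists_colV hv)

/-- The matrix of a graph: row `i` is the set of (indices of) neighbours outside `U` of the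
`i`-th vertex of `U`. -/
noncomputable def toMat (U : Finset (Fin n)) (G : SimpleGraph (Fin n)) :
    Bip.Mat U.card Uᶜ.card :=
  fun i => univ.filter (fun j => G.Adj (rowV U i) (colV U j))

lemma mem_toMat (U : Finset (Fin n)) (G : SimpleGraph (Fin n)) (i : Fin U.card)
    (j : Fin Uᶜ.card) : j ∈ toMat U G i ↔ G.Adj (rowV U i) (colV U j) := by
  simp [toMat]

/-- The graph of a matrix: `U` is a clique, its complement is independent, and the edges
between them are the entries of the matrix. -/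
def toGraph (U : Finset (Fin n)) (x : Bip.Mat U.card Uᶜ.card) : SimpleGraph (Fin n) where
  Adj a b := a ≠ b ∧ ((a ∈ U ∧ b ∈ U) ∨ (∃ i j, a = rowV U i ∧ b = colV U j ∧ j ∈ x i) ∨
    (∃ i j, b = rowV U i ∧ a = colV U j ∧ j ∈ x i))
  symm := ⟨fun a b h => ⟨h.1.symm, by
    rcases h.2 with h1 | h1 | h1
    · exact Or.inl ⟨h1.2, h1.1⟩
    · exact Or.inr (Or.inr h1)
    · exact Or.inr (Or.inl h1)⟩⟩
  loopless := ⟨fun a h => h.1 rfl⟩

lemma toGraph_adj (U : Finset (Fin n)) (x : Bip.Mat U.card Uᶜ.card) (a b : Fin n) :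
    (toGraph U x).Adj a b ↔ a ≠ b ∧ ((a ∈ U ∧ b ∈ U) ∨
      (∃ i j, a = rowV U i ∧ b = colV U j ∧ j ∈ x i) ∨
      (∃ i j, b = rowV U i ∧ a = colV U j ∧ j ∈ x i)) := Iff.rfl

lemma toGraph_adj_row_row (U : Finset (Fin n)) (x : Bip.Mat U.card Uᶜ.card)
    (k k' : Fin U.card) : (toGraph U x).Adj (rowV U k) (rowV U k') ↔ k ≠ k' := by
  rw [toGraph_adj]
  constructor
  · rintro ⟨h, -⟩ rfl
    exact h rfl
  · intro h
    exact ⟨(rowV_injective U).ne h, Or.inl ⟨rowV_mem U k, rowV_mem U k'⟩⟩

lemma toGraph_adj_row_col (U : Finset (Fin n)) (x : Bip.Mat U.card Uᶜ.card)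
    (k : Fin U.card) (l : Fin Uᶜ.card) : (toGraph U x).Adj (rowV U k) (colV U l) ↔ l ∈ x k := by
  rw [toGraph_adj]
  constructor
  · rintro ⟨-, ⟨-, h⟩ | ⟨i, j, h1, h2, h3⟩ | ⟨i, j, h1, h2, h3⟩⟩
    · exact absurd h (colV_not_mem U l)
    · rw [(rowV_injective U) h1, (colV_injective U) h2]
      exact h3
    · exact absurd h1.symm (rowV_ne_colV U i l)
  · intro h
    exact ⟨rowV_ne_colV U k l, Or.inr (Or.inl ⟨k, l, rfl, rfl, h⟩)⟩

lemma toGraph_adj_col_row (U : Finset (Fin n)) (x : Bip.Mat U.card Uᶜ.card)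
    (k : Fin U.card) (l : Fin Uᶜ.card) : (toGraph U x).Adj (colV U l) (rowV U k) ↔ l ∈ x k := by
  rw [SimpleGraph.adj_comm, toGraph_adj_row_col]

lemma toGraph_adj_col_col (U : Finset (Fin n)) (x : Bip.Mat U.card Uᶜ.card)
    (l l' : Fin Uᶜ.card) : (toGraph U x).Adj (colV U l) (colV U l') ↔ False := by
  rw [toGraph_adj, iff_false]
  rintro ⟨-, ⟨h, -⟩ | ⟨i, j, h1, -, -⟩ | ⟨i, j, h1, -, -⟩⟩
  · exact colV_not_mem U l h
  · exact rowV_ne_colV U i l h1.symm
  · exact rowV_ne_colV U i l' h1.symm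

lemma isSplitOn_toGraph (U : Finset (Fin n)) (x : Bip.Mat U.card Uᶜ.card) :
    IsSplitOn (toGraph U x) U := by
  refine ⟨fun u hu u' hu' hne => ⟨hne, Or.inl ⟨hu, hu'⟩⟩, fun w hw w' hw' => ?_⟩
  obtain ⟨l, rfl⟩ := exists_colV hw
  obtain ⟨l', rfl⟩ := exists_colV hw'
  rw [toGraph_adj_col_col]
  exact id

lemma toMat_toGraph (U : Finset (Fin n)) (x : Bip.Mat U.card Uᶜ.card) :
    toMat U (toGraph U x) = x := by
  funext i
  ext j
  rw [mem_toMat, toGraph_adj_row_col]

lemma adj_row_row {G : SimpleGraph (Fin n)} {U : Finset (Fin n)} (hG : IsSplitOn G U)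
    (k k' : Fin U.card) : G.Adj (rowV U k) (rowV U k') ↔ k ≠ k' := by
  constructor
  · rintro h rfl
    exact G.irrefl h
  · intro h
    exact hG.1 _ (rowV_mem U k) _ (rowV_mem U k') ((rowV_injective U).ne h)

lemma adj_col_col {G : SimpleGraph (Fin n)} {U : Finset (Fin n)} (hG : IsSplitOn G U)
    (l l' : Fin Uᶜ.card) : G.Adj (colV U l) (colV U l') ↔ False :=
  iff_false_intro (hG.2 _ (colV_not_mem U l) _ (colV_not_mem U l'))

lemma toGraph_toMat {G : SimpleGraph (Fin n)} {U : Finset (Fin n)} (hG : IsSplitOn G U) :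
    toGraph U (toMat U G) = G := by
  ext a b
  rcases vertex_cases U a with ⟨k, rfl⟩ | ⟨l, rfl⟩ <;>
    rcases vertex_cases U b with ⟨k', rfl⟩ | ⟨l', rfl⟩
  · rw [toGraph_adj_row_row, adj_row_row hG]
  · rw [toGraph_adj_row_col, mem_toMat]
  · rw [toGraph_adj_col_row, mem_toMat, SimpleGraph.adj_comm]
  · rw [toGraph_adj_col_col, adj_col_col hG]

lemma neighborFinset_rowV {G : SimpleGraph (Fin n)} {U : Finset (Fin n)} (hG : IsSplitOn G U)
    (i : Fin U.card) :
    G.neighborFinset (rowV U i) = U.erase (rowV U i) ∪ (toMat U G i).image (colV U) := by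
  ext v
  rw [SimpleGraph.mem_neighborFinset, Finset.mem_union, Finset.mem_erase, Finset.mem_image]
  rcases vertex_cases U v with ⟨k, rfl⟩ | ⟨l, rfl⟩
  · rw [adj_row_row hG]
    constructor
    · intro h
      exact Or.inl ⟨fun h' => h ((rowV_injective U) h').symm, rowV_mem U k⟩
    · rintro (⟨h, -⟩ | ⟨j, -, h⟩)
      · rintro rfl
        exact h rfl
      · exact absurd h.symm (rowV_ne_colV U k j)
  · constructor
    · intro h
      exact Or.inr ⟨l, (mem_toMat U G i l).2 h, rfl⟩
    · rintro (⟨-, h⟩ | ⟨j, hj, h⟩)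
      · exact absurd h (colV_not_mem U l)
      · rw [← (colV_injective U) h]
        exact (mem_toMat U G i j).1 hj

lemma degree_rowV {G : SimpleGraph (Fin n)} {U : Finset (Fin n)} (hG : IsSplitOn G U)
    (i : Fin U.card) : G.degree (rowV U i) = (U.card - 1) + (toMat U G i).card := by
  rw [← SimpleGraph.card_neighborFinset_eq_degree, neighborFinset_rowV hG,
    Finset.card_union_of_disjoint, Finset.card_erase_of_mem (rowV_mem U i),
    Finset.card_image_of_injective _ (colV_injective U)]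
  rw [Finset.disjoint_left]
  intro v hv hv'
  obtain ⟨j, -, rfl⟩ := Finset.mem_image.1 hv'
  exact colV_not_mem U j (Finset.mem_of_mem_erase hv)

lemma neighborFinset_colV {G : SimpleGraph (Fin n)} {U : Finset (Fin n)} (hG : IsSplitOn G U)
    (j : Fin Uᶜ.card) :
    G.neighborFinset (colV U j) = (univ.filter (fun i => j ∈ toMat U G i)).image (rowV U) := by
  ext v
  rw [SimpleGraph.mem_neighborFinset, Finset.mem_image]
  rcases vertex_cases U v with ⟨k, rfl⟩ | ⟨l, rfl⟩
  · constructor
    · intro h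
      refine ⟨k, ?_, rfl⟩
      rw [Finset.mem_filter]
      exact ⟨Finset.mem_univ _, (mem_toMat U G k j).2 h.symm⟩
    · rintro ⟨i, hi, h⟩
      rw [Finset.mem_filter] at hi
      rw [← (rowV_injective U) h]
      exact ((mem_toMat U G i j).1 hi.2).symm
  · rw [adj_col_col hG, false_iff]
    rintro ⟨i, -, h⟩
    exact rowV_ne_colV U i l h

lemma degree_colV {G : SimpleGraph (Fin n)} {U : Finset (Fin n)} (hG : IsSplitOn G U)
    (j : Fin Uᶜ.card) : G.degree (colV U j) = Bip.colSum (toMat U G) j := by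
  rw [← SimpleGraph.card_neighborFinset_eq_degree, neighborFinset_colV hG,
    Finset.card_image_of_injective _ (rowV_injective U)]
  unfold Bip.colSum
  congr 1

lemma mem_swMat {m k : ℕ} (x : Bip.Mat m k) (i i' : Fin m) (j j' : Fin k) (hii' : i ≠ i')
    (a : Fin m) (l : Fin k) :
    l ∈ Bip.swMat x i i' j j' a ↔
      (a = i' ∧ (l = j ∨ (l ≠ j' ∧ l ∈ x i'))) ∨ (a = i ∧ (l = j' ∨ (l ≠ j ∧ l ∈ x i))) ∨
        (a ≠ i ∧ a ≠ i' ∧ l ∈ x a) := by
  unfold Bip.swMat
  by_cases h1 : a = i'
  · subst h1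
    rw [Function.update_self, Finset.mem_insert, Finset.mem_erase]
    constructor
    · intro h
      exact Or.inl ⟨rfl, h⟩
    · rintro (⟨-, h⟩ | ⟨h, -⟩ | ⟨-, h, -⟩)
      · exact h
      · exact absurd h.symm hii'
      · exact absurd rfl h
  · rw [Function.update_of_ne h1]
    by_cases h2 : a = i
    · subst h2
      rw [Function.update_self, Finset.mem_insert, Finset.mem_erase]
      constructor
      · intro h
        exact Or.inr (Or.inl ⟨rfl, h⟩)
      · rintro (⟨h, -⟩ | ⟨-, h⟩ | ⟨h, -, -⟩)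
        · exact absurd h h1
        · exact h
        · exact absurd rfl h
    · rw [Function.update_of_ne h2]
      constructor
      · intro h
        exact Or.inr (Or.inr ⟨h2, h1, h⟩)
      · rintro (⟨h, -⟩ | ⟨h, -⟩ | ⟨-, -, h⟩)
        · exact absurd h h1
        · exact absurd h h2
        · exact h

lemma gswitch_toGraph (U : Finset (Fin n)) (x y : Bip.Mat U.card Uᶜ.card)
    (hxy : Bip.IsSwitch x y) : GSwitch (toGraph U x) (toGraph U y) := by
  obtain ⟨i, i', j, j', -, -, hii', hjj', h1, h2, h3, h4, rfl⟩ := hxy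
  refine ⟨rowV U i, colV U j, colV U j', rowV U i', rowV_ne_colV U i j, rowV_ne_colV U i j',
    (rowV_injective U).ne hii', (colV_injective U).ne hjj', (rowV_ne_colV U i' j).symm,
    (rowV_ne_colV U i' j').symm, (toGraph_adj_row_col U x i j).2 h1,
    (toGraph_adj_col_row U x i' j').2 h3, ?_, ?_, ?_⟩
  · rw [toGraph_adj_row_col]
    exact h2
  · rw [toGraph_adj_col_row]
    exact h4
  · ext p q
    rw [SimpleGraph.fromEdgeSet_adj]
    simp only [Set.mem_union, Set.mem_sdiff, Set.mem_insert_iff, Set.mem_singleton_iff,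
      SimpleGraph.mem_edgeSet, Sym2.eq_iff]
    rcases vertex_cases U p with ⟨k, rfl⟩ | ⟨l, rfl⟩ <;>
      rcases vertex_cases U q with ⟨k', rfl⟩ | ⟨l', rfl⟩
    · simp only [toGraph_adj_row_row, rowV_eq_rowV_iff, rowV_eq_colV_iff, ne_eq]
      tauto
    · simp only [toGraph_adj_row_col, rowV_eq_rowV_iff, rowV_eq_colV_iff, colV_eq_rowV_iff,
        colV_eq_colV_iff, mem_swMat x i i' j j' hii']
      have := rowV_ne_colV U k l'
      by_cases e1 : k = i <;> by_cases e2 : k = i' <;> by_cases e3 : l' = j <;>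
        by_cases e4 : l' = j' <;> simp_all
    · simp only [toGraph_adj_col_row, rowV_eq_rowV_iff, rowV_eq_colV_iff, colV_eq_rowV_iff,
        colV_eq_colV_iff, mem_swMat x i i' j j' hii']
      have := (rowV_ne_colV U k' l).symm
      by_cases e1 : k' = i <;> by_cases e2 : k' = i' <;> by_cases e3 : l = j <;>
        by_cases e4 : l = j' <;> simp_all
    · simp only [toGraph_adj_col_col, colV_eq_rowV_iff, colV_eq_colV_iff, ne_eq]
      tauto

/-- Job B2: for a degree vector all of whose realizations are split on `U`, the realizations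
correspond bijectively to the margin matrices, and matrix switches are graph switches. -/
theorem split_equiv {n : ℕ} {d : Fin n → ℕ} {U : Finset (Fin n)}
    (h : ∀ G : Omega n d, IsSplitOn G.1 U) (hne : Nonempty (Omega n d)) :
    ∃ e : Omega n d ≃ Bip.Om U.card Uᶜ.card (rowM d U) (colM d U),
      ∀ x y : Bip.Om U.card Uᶜ.card (rowM d U) (colM d U),
        Bip.IsSwitch x.1 y.1 → GSwitch (e.symm x).1 (e.symm y).1 := by
  obtain ⟨G0⟩ := hne
  have hge : ∀ i : Fin U.card, U.card - 1 ≤ d (rowV U i) := by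
    intro i
    have h1 := degree_rowV (h G0) i
    rw [G0.2] at h1
    omega
  have hrow : ∀ i : Fin U.card, rowM d U i = d (rowV U i) - (U.card - 1) := fun i => rfl
  have hcol : ∀ j : Fin Uᶜ.card, colM d U j = d (colV U j) := fun j => rfl
  refine ⟨{ toFun := fun G => ⟨toMat U G.1, fun i => ?_, fun j => ?_⟩
            invFun := fun x => ⟨toGraph U x.1, fun v => ?_⟩
            left_inv := fun G => Subtype.ext (toGraph_toMat (h G))
            right_inv := fun x => Subtype.ext (toMat_toGraph U x.1) }, ?_⟩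
  · have h1 := degree_rowV (h G) i
    rw [G.2] at h1
    rw [hrow]
    omega
  · rw [hcol, ← degree_colV (h G) j, G.2]
  · rcases vertex_cases U v with ⟨k, rfl⟩ | ⟨l, rfl⟩
    · rw [degree_rowV (isSplitOn_toGraph U x.1) k, toMat_toGraph, x.2.1 k, hrow]
      have := hge k
      omega
    · rw [degree_colV (isSplitOn_toGraph U x.1) l, toMat_toGraph, x.2.2 l, hcol]
  · intro x y hxy
    exact gswitch_toGraph U x.1 y.1 hxy

end Vale.Agent.Lib.P335.Bridge
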